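import Vale.Agent.P355.Disc
import Vale.Agent.P355.Cyc
import Vale.Agent.P355.Defs

namespace Vale.Agent.Results.P355.BruckRyser

open Vale.Agent.P355 Matrix

theorem main (b : Fin 7 → OrthonormalBasis (Fin 6) ℂ (EuclideanSpace ℂ (Fin 6)))
    (hb : ∀ a a', a ≠ a' → ∀ j k, ‖inner ℂ (b a j) (b a' k)‖ ^ 2 = 1 / 6) (K : Subfield ℂ)
    (hK : ∀ a j c k d l,
      inner ℂ (b a j) (b c k) * inner ℂ (b c k) (b d l) * inner ℂ (b d l) (b a j) ∈ K) :
    Complex.I ∈ K ∧ ∃ x y : ℝ, (x : ℂ) ∈ K ∧ (y : ℂ) ∈ K ∧ x ^ 2 + y ^ 2 = 6 := by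
  have h6 : ∀ a a', a ≠ a' → ∀ j k, inner ℂ (b a j) (b a' k) * inner ℂ (b a' k) (b a j) = 1 / 6 := by
    intro a a' h j k
    rw [← inner_conj_symm (b a' k), Complex.mul_conj, Complex.normSq_eq_norm_sq, hb a a' h]
    norm_num
  obtain ⟨X, hX⟩ : ∃ X : Fin 7 → Fin 6 → Fin 6 → ℂ, X = fun a j k =>
    6 * inner ℂ (b 1 0) (b 0 k) * inner ℂ (b 0 k) (b a j) := ⟨_, rfl⟩
  obtain ⟨Y, hY⟩ : ∃ Y : Fin 7 → Fin 6 → Fin 6 → ℂ, Y = fun a j k =>
    inner ℂ (b a j) (b 0 k) * inner ℂ (b 0 k) (b 1 0) := ⟨_, rfl⟩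
  have hd : ∀ a j c k, Y a j ⬝ᵥ X c k = inner ℂ (b a j) (b c k) := by
    intro a j c k
    rw [← (b 0).sum_inner_mul_inner, dotProduct]
    refine Finset.sum_congr rfl fun l _ => ?_
    rw [hX, hY]
    linear_combination 6 * inner ℂ (b a j) (b 0 l) * inner ℂ (b 0 l) (b c k) *
      h6 0 1 (by decide) l 0
  have ht : ∀ a j c k, (vecMulVec (X a j) (Y a j) * vecMulVec (X c k) (Y c k)).trace =
      inner ℂ (b a j) (b c k) * inner ℂ (b c k) (b a j) := by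
    intro a j c k
    rw [vecMulVec_mul_vecMulVec, trace_vecMulVec, dotProduct_smul, smul_eq_mul,
      dotProduct_comm (X a j), hd, hd]
  have hI : Complex.I ∈ K := by
    refine disc (fun a j => vecMulVec (X a j) (Y a j)) K (fun a j k l => ?_) (fun a j => ?_)
      (fun a j k => ?_) fun a a' h j k => ?_
    · obtain ⟨c, c0, c1, c2⟩ : ∃ c : Fin 7, 0 ≠ c ∧ 1 ≠ c ∧ a ≠ c := by
        revert a
        decide
      have := mul_mem (ofNat_mem K 7776) (mul_mem (mul_mem (hK 1 0 0 k c 0) (hK c 0 0 k a j))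
        (mul_mem (hK c 0 a j 0 l) (hK c 0 0 l 1 0)))
      convert this using 1
      have e1 := h6 0 c c0 k 0
      have e2 := h6 0 c c0 l 0
      have e3 := h6 1 c c1 0 0
      have e4 := h6 a c c2 j 0
      rw [vecMulVec_apply, hX, hY]
      dsimp only
      calc _ = 7776 * (inner ℂ (b 1 0) (b 0 k) * inner ℂ (b 0 k) (b a j) * inner ℂ (b a j) (b 0 l) *
          inner ℂ (b 0 l) (b 1 0)) * ((1 / 6) * (1 / 6) * (1 / 6) * (1 / 6)) := by ring
        _ = _ := by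
          nth_rw 4 [← e4]
          nth_rw 3 [← e3]
          nth_rw 2 [← e2]
          rw [← e1]
          ring
    · rw [trace_vecMulVec, dotProduct_comm, hd, orthonormal_iff_ite.1 (b a).orthonormal, if_pos rfl]
    · rw [ht, orthonormal_iff_ite.1 (b a).orthonormal, orthonormal_iff_ite.1 (b a).orthonormal]
      by_cases h : j = k
      · simp [h]
      · simp [h]
    · rw [ht, h6 a a' h]
  refine ⟨hI, ?_⟩
  obtain ⟨z, hz⟩ : ∃ z : ℂ, z = inner ℂ (b 0 0) (b 1 0) * inner ℂ (b 1 0) (b 2 0) *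
    inner ℂ (b 2 0) (b 0 0) := ⟨_, rfl⟩
  have z1 : z ∈ K := hz ▸ hK 0 0 1 0 2 0
  have z2 : (starRingEnd ℂ) z ∈ K := by
    rw [hz, map_mul, map_mul, inner_conj_symm, inner_conj_symm, inner_conj_symm]
    convert hK 0 0 2 0 1 0 using 1
    ring
  have z3 : ‖z‖ ^ 2 = 1 / 216 := by
    rw [hz, norm_mul, norm_mul, mul_pow, mul_pow, hb 0 1 (by decide), hb 1 2 (by decide),
      hb 2 0 (by decide)]
    norm_num
  refine ⟨36 * z.re, 36 * z.im, ?_, ?_, ?_⟩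
  · rw [Complex.ofReal_mul, Complex.re_eq_add_conj]
    exact mul_mem (by exact_mod_cast ofNat_mem K 36) (div_mem (add_mem z1 z2) (ofNat_mem K 2))
  · rw [Complex.ofReal_mul, Complex.im_eq_sub_conj]
    exact mul_mem (by exact_mod_cast ofNat_mem K 36)
      (div_mem (sub_mem z1 z2) (mul_mem (ofNat_mem K 2) hI))
  · rw [← Complex.normSq_eq_norm_sq, Complex.normSq_apply] at z3
    linear_combination 1296 * z3

theorem result (b : Fin 7 → Basis6) (hb : MUB b) :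
    (∀ K : Subfield ℂ, triples b ⊆ K →
      Complex.I ∈ K ∧ ∃ x y : ℝ, (x : ℂ) ∈ K ∧ (y : ℂ) ∈ K ∧ x ^ 2 + y ^ 2 = 6) ∧
    ∀ (q : ℕ) (z : ℂ), ¬ 4 ∣ q → z ^ q = 1 → ¬ triples b ⊆ Subfield.closure {z} :=
  ⟨fun K h => main b hb K fun a j c k d l => h ⟨a, j, c, k, d, l, rfl⟩, fun q z hq hz h =>
    cyc q hq z hz (main b hb _ fun a j c k d l => h ⟨a, j, c, k, d, l, rfl⟩).1⟩

end Vale.Agent.Results.P355.BruckRyser
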