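import Vale.Agent.P355.Sym

namespace Vale.Agent.Results.P355.Symmetry

open Vale.Agent.P355

theorem result (m : ℕ) (hm : 3 ≤ m) (B : Fin m → ONB)
    (hB : ∀ k l, k ≠ l → Unbiased (B k) (B l)) (U : Un) (π : Equiv.Perm (Fin m))
    (hU : ∀ k, Sends U (B k) (B (π k))) :
    (∀ n : ℕ, 3 ≤ (Finset.univ.filter fun k => (π ^ n) k = k).card → ScalarPow U (12 * n)) ∧
    (m ≤ 4 → ScalarPow U 144) := by
  have key : ∀ n : ℕ, 3 ≤ (Finset.univ.filter fun k => (π ^ n) k = k).card →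
      ∃ c : ℂ, ∀ x, (U ^ (12 * n)) x = c • x := by
    intro n hn
    obtain ⟨k1, k2, k3, h1, h2, h3, h12, h13, h23⟩ := Finset.two_lt_card_iff.mp hn
    have hfix : ∀ k ∈ (Finset.univ.filter fun k => (π ^ n) k = k),
        ∀ i, ∃ j, ∃ a : ℂ, (U ^ n) (B k i) = a • B k j := by
      intro k hk i
      have := iter hU n k i
      rwa [(Finset.mem_filter.mp hk).2] at this
    rw [mul_comm, pow_mul]
    exact twelve (hB _ _ h12) (hB _ _ h13) (hB _ _ h23) (hfix _ h1) (hfix _ h2) (hfix _ h3)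
  refine ⟨key, fun h4 => key 12 ?_⟩
  have h12 : π ^ 12 = 1 := by
    refine perm_pow_eq_one (fun d h1 h2 => ?_) π
    have h3 : d ≤ 4 := h2.trans h4
    interval_cases d <;> norm_num
  simpa [h12] using hm

end Vale.Agent.Results.P355.Symmetry
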